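import Mathlib

namespace Vale.Agent.P042

open Finset

def Good (M s T : ℕ) : Prop :=
  ∃ (ι : Type) (_ : Fintype ι) (e : ι → ℤ) (Φ : ι → ℕ), Fintype.card ι = s ∧ (∀ i, Φ i < T) ∧
    ∀ i j (n : ℤ), (M : ℤ) ∣ e i - e j - n ^ 2 → i = j ∨ Φ j < Φ i

theorem Good.mono {M s T T' : ℕ} (h : Good M s T) (hT : T ≤ T') : Good M s T' := by
  obtain ⟨ι, hι, e, Φ, h1, h2, h3⟩ := h
  exact ⟨ι, hι, e, Φ, h1, fun i => (h2 i).trans_le hT, h3⟩

theorem good_one : Good 1 1 1 :=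
  ⟨Unit, inferInstance, fun _ => 0, fun _ => 0, by simp, fun _ => by simp,
    fun _ _ _ _ => Or.inl rfl⟩

theorem Good.comp {r s t M s' T : ℕ} (hr : r ≠ 0) (h : Good (r ^ 2) s t) (h' : Good M s' T) :
    Good (r ^ 2 * M) (s * s') (t * T) := by
  obtain ⟨ι, hι, e, Φ, h1, h2, h3⟩ := h
  obtain ⟨κ, hκ, f, Ψ, k1, k2, k3⟩ := h'
  refine ⟨ι × κ, inferInstance, fun x => e x.1 + (r : ℤ) ^ 2 * f x.2,
    fun x => Φ x.1 * T + Ψ x.2, by simp [h1, k1], ?_, ?_⟩
  · rintro ⟨i, a⟩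
    have := h2 i
    have := k2 a
    show Φ i * T + Ψ a < t * T
    nlinarith
  · rintro ⟨i, a⟩ ⟨j, b⟩ n hd
    simp only at hd ⊢
    have hd1 : ((r ^ 2 : ℕ) : ℤ) ∣ e i - e j - n ^ 2 := by
      have h0 : ((r ^ 2 : ℕ) : ℤ) ∣ e i + (r : ℤ) ^ 2 * f a - (e j + (r : ℤ) ^ 2 * f b) - n ^ 2 :=
        Dvd.dvd.trans (by push_cast; exact Dvd.intro _ rfl) hd
      have h4 : e i - e j - n ^ 2 = (e i + (r : ℤ) ^ 2 * f a - (e j + (r : ℤ) ^ 2 * f b) - n ^ 2)
          - ((r ^ 2 : ℕ) : ℤ) * (f a - f b) := by push_cast; ring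
      rw [h4]
      exact dvd_sub h0 (Dvd.intro _ rfl)
    rcases h3 i j n hd1 with hij | hij
    · subst hij
      have h5 : (r : ℤ) ^ 2 ∣ n ^ 2 := by
        have : ((r ^ 2 : ℕ) : ℤ) ∣ -(n ^ 2) := by simpa using hd1
        have := (dvd_neg.mp this)
        exact_mod_cast this
      obtain ⟨m, rfl⟩ := (Int.pow_dvd_pow_iff (by norm_num : (2 : ℕ) ≠ 0)).mp h5
      have h6 : (M : ℤ) ∣ f a - f b - m ^ 2 := by
        have h7 : e i + (r : ℤ) ^ 2 * f a - (e i + (r : ℤ) ^ 2 * f b) - ((r : ℤ) * m) ^ 2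
            = (r : ℤ) ^ 2 * (f a - f b - m ^ 2) := by ring
        rw [h7] at hd
        push_cast at hd
        exact (mul_dvd_mul_iff_left (pow_ne_zero 2 (by exact_mod_cast hr))).mp hd
      rcases k3 a b m h6 with hab | hab
      · left; rw [hab]
      · right; omega
    · right
      have := k2 b
      nlinarith

theorem Good.pow {r s t : ℕ} (hr : r ≠ 0) (h : Good (r ^ 2) s t) (n : ℕ) :
    Good ((r ^ 2) ^ n) (s ^ n) (t ^ n) := by
  induction n with
  | zero => simpa using good_one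
  | succ n ih =>
    have := h.comp hr ih
    simpa [pow_succ'] using this

theorem Good.crt {M s T M' s' T' : ℕ} (hc : Nat.Coprime M M') (h : Good M s T)
    (h' : Good M' s' T') : Good (M * M') (s * s') (T + T') := by
  obtain ⟨ι, hι, e, Φ, h1, h2, h3⟩ := h
  obtain ⟨κ, hκ, f, Ψ, k1, k2, k3⟩ := h'
  obtain ⟨u, v, huv⟩ := Nat.isCoprime_iff_coprime.mpr hc
  refine ⟨ι × κ, inferInstance, fun x => e x.1 * (v * M') + f x.2 * (u * M),
    fun x => Φ x.1 + Ψ x.2, by simp [h1, k1], ?_, ?_⟩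
  · rintro ⟨i, a⟩
    have := h2 i
    have := k2 a
    show Φ i + Ψ a < T + T'
    omega
  · rintro ⟨i, a⟩ ⟨j, b⟩ n hd
    simp only at hd ⊢
    have hd1 : (M : ℤ) ∣ e i - e j - n ^ 2 := by
      have h0 : (M : ℤ) ∣ e i * (v * M') + f a * (u * M) - (e j * (v * M') + f b * (u * M)) - n ^ 2 :=
        Dvd.dvd.trans (by push_cast; exact Dvd.intro _ rfl) hd
      have h4 : e i - e j - n ^ 2 =
          (e i * (v * M') + f a * (u * M) - (e j * (v * M') + f b * (u * M)) - n ^ 2)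
          + (M : ℤ) * (u * (e i - e j - f a + f b)) := by
        linear_combination (-(e i - e j)) * huv
      rw [h4]
      exact dvd_add h0 (Dvd.intro _ rfl)
    have hd2 : (M' : ℤ) ∣ f a - f b - n ^ 2 := by
      have h0 : (M' : ℤ) ∣ e i * (v * M') + f a * (u * M) - (e j * (v * M') + f b * (u * M)) - n ^ 2 :=
        Dvd.dvd.trans (by push_cast; exact Dvd.intro_left _ rfl) hd
      have h4 : f a - f b - n ^ 2 =
          (e i * (v * M') + f a * (u * M) - (e j * (v * M') + f b * (u * M)) - n ^ 2)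
          + (M' : ℤ) * (v * (f a - f b - e i + e j)) := by
        linear_combination (-(f a - f b)) * huv
      rw [h4]
      exact dvd_add h0 (Dvd.intro _ rfl)
    rcases h3 i j n hd1 with hij | hij <;> rcases k3 a b n hd2 with hab | hab
    · left; rw [hij, hab]
    · right; rw [hij]; omega
    · right; rw [hab]; omega
    · right; omega

theorem good_of_table (q s t : ℕ) (hq : 0 < q) (c : Fin s → ℕ) (h : Fin s → ℕ)
    (ht : ∀ i, h i < t)
    (hc : ∀ i j : Fin s, ∀ y < q, (c j + y * y) % q = c i % q → i = j ∨ h j < h i) :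
    Good q s t := by
  refine ⟨Fin s, inferInstance, fun i => c i, h, by simp, ht, ?_⟩
  intro i j n hd
  have hq' : (0 : ℤ) < q := by exact_mod_cast hq
  obtain ⟨y, hy⟩ := Int.eq_ofNat_of_zero_le (Int.emod_nonneg n hq'.ne')
  have hy2 : y < q := by
    have := Int.emod_lt_of_pos n hq'
    omega
  apply hc i j y hy2
  have h1 : ((c j + y * y : ℕ) : ℤ) ≡ (c i : ℤ) [ZMOD q] := by
    have h2 : (y : ℤ) ≡ n [ZMOD q] := by rw [← hy]; exact Int.mod_modEq n q
    have h3 : ((c j : ℤ) + n * n) ≡ (c i : ℤ) [ZMOD q] := by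
      apply Int.modEq_iff_dvd.mpr
      have : (c i : ℤ) - ((c j : ℤ) + n * n) = c i - c j - n ^ 2 := by ring
      rw [this]; exact hd
    push_cast
    exact (Int.ModEq.add_left _ (h2.mul h2)).trans h3
  exact_mod_cast (Int.natCast_modEq_iff.mp h1)

theorem good_of_chain (p t : ℕ) (hp : p.Prime) (c : Fin t → ℕ)
    (hc : ∀ i j : Fin t, ∀ y < p, (c j + y * y) % p = c i % p → j ≤ i) :
    Good (p ^ 2) (p * t) t := by
  obtain ⟨ι, hι, e, Φ, h1, h2, h3⟩ := good_of_table p t t hp.pos c (fun i => i.val)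
    (fun i => i.isLt) (fun i j y hy h => by
      rcases (hc i j y hy h).eq_or_lt with h' | h'
      · exact Or.inl h'.symm
      · exact Or.inr h')
  refine ⟨Fin p × ι, inferInstance, fun x => e x.2 + (p : ℤ) * (x.1 : ℕ), fun x => Φ x.2,
    by simp [h1], fun x => h2 x.2, ?_⟩
  rintro ⟨k, i⟩ ⟨l, j⟩ n hd
  simp only at hd ⊢
  have h0 : (p : ℤ) ∣ e i + (p : ℤ) * (k : ℕ) - (e j + (p : ℤ) * (l : ℕ)) - n ^ 2 :=
    Dvd.dvd.trans (by push_cast; exact Dvd.intro_left _ (pow_two _).symm) hd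
  have hd1 : (p : ℤ) ∣ e i - e j - n ^ 2 := by
    have h4 : e i - e j - n ^ 2 = (e i + (p : ℤ) * (k : ℕ) - (e j + (p : ℤ) * (l : ℕ)) - n ^ 2)
        - (p : ℤ) * ((k : ℕ) - (l : ℕ)) := by ring
    rw [h4]
    exact dvd_sub h0 (Dvd.intro _ rfl)
  rcases h3 i j n hd1 with hij | hij
  · subst hij
    left
    have h5 : (p : ℤ) ∣ n ^ 2 := by
      have : (p : ℤ) ∣ -(n ^ 2) := by simpa using hd1
      exact dvd_neg.mp this
    obtain ⟨m, rfl⟩ := Int.Prime.dvd_pow' hp h5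
    have h7 : e i + (p : ℤ) * (k : ℕ) - (e i + (p : ℤ) * (l : ℕ)) - ((p : ℤ) * m) ^ 2
        = (p : ℤ) * (((k : ℕ) : ℤ) - (l : ℕ) - p * m ^ 2) := by ring
    rw [h7] at hd
    push_cast at hd
    rw [pow_two] at hd
    have h8 := (mul_dvd_mul_iff_left (by exact_mod_cast hp.ne_zero : (p : ℤ) ≠ 0)).mp hd
    have h9 : (p : ℤ) ∣ ((k : ℕ) : ℤ) - (l : ℕ) := by
      have := dvd_add h8 (Dvd.intro (m ^ 2) rfl : (p : ℤ) ∣ p * m ^ 2)
      simpa using this
    have hk := k.isLt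
    have hl := l.isLt
    have h10 : ((k : ℕ) : ℤ) - (l : ℕ) = 0 := by
      apply Int.eq_zero_of_abs_lt_dvd h9
      rw [abs_lt]; constructor <;> omega
    have : k = l := Fin.ext (by omega)
    rw [this]
  · exact Or.inr hij

theorem Good.final {M s T : ℕ} (hM : 0 < M) (hT : 0 < T) (h : Good M s T) :
    ∃ A : Finset ℤ, A ⊆ Icc 1 ((M * T : ℕ) : ℤ) ∧ s ≤ 2 * A.card ∧
      ∀ a ∈ A, ∀ b ∈ A, ∀ n : ℤ, a - b = n ^ 2 → n = 0 := by
  classical
  obtain ⟨ι, hι, e, Φ, h1, h2, h3⟩ := h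
  have hM' : (0 : ℤ) < M := by exact_mod_cast hM
  let F : ι × Fin T → ℕ := fun x => Φ x.1 + x.2
  let g : ι × Fin T → ℤ := fun x => e x.1 % M + (M : ℤ) * (x.2 : ℕ) + 1
  have hmaps : ∀ x ∈ (univ : Finset (ι × Fin T)), F x ∈ range (2 * T) := by
    rintro ⟨i, k⟩ _
    have := h2 i
    have := k.isLt
    simp only [F, mem_range]; omega
  have key : ∀ x y : ι × Fin T, F x = F y → ∀ n : ℤ, g x - g y = n ^ 2 → x = y := by
    rintro ⟨i, k⟩ ⟨j, l⟩ hF n hn
    simp only [F, g] at hF hn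
    have hd : (M : ℤ) ∣ e i - e j - n ^ 2 := by
      rw [← hn]
      have a1 := Int.emod_add_mul_ediv (e i) M
      have a2 := Int.emod_add_mul_ediv (e j) M
      exact ⟨e i / M - e j / M - (k : ℕ) + (l : ℕ), by linear_combination -a1 + a2⟩
    rcases h3 i j n hd with hij | hij
    · subst hij
      have : k = l := Fin.ext (by omega)
      rw [this]
    · exfalso
      have hkl : (k : ℕ) + 1 ≤ l := by omega
      have hkl' : ((k : ℕ) : ℤ) + 1 ≤ (l : ℕ) := by exact_mod_cast hkl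
      have b1 := Int.emod_lt_of_pos (e i) hM'
      have b2 := Int.emod_nonneg (e j) hM'.ne'
      nlinarith [sq_nonneg n]
  obtain ⟨c, hc, hcard⟩ : ∃ c ∈ range (2 * T),
      s ≤ 2 * (univ.filter (fun x : ι × Fin T => F x = c)).card := by
    by_contra hcon
    push Not at hcon
    have hsum := card_eq_sum_card_fiberwise hmaps
    have h5 : ∑ c ∈ range (2 * T), 2 * (univ.filter (fun x : ι × Fin T => F x = c)).card
        < ∑ c ∈ range (2 * T), s :=
      sum_lt_sum_of_nonempty (by simp; omega) (fun c hc => hcon c hc)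
    rw [← mul_sum, ← hsum] at h5
    simp [h1] at h5
    nlinarith
  refine ⟨(univ.filter (fun x : ι × Fin T => F x = c)).image g, ?_, ?_, ?_⟩
  · intro a ha
    obtain ⟨⟨i, k⟩, -, rfl⟩ := mem_image.mp ha
    have b1 := Int.emod_lt_of_pos (e i) hM'
    have b2 := Int.emod_nonneg (e i) hM'.ne'
    have hk : ((k : ℕ) : ℤ) + 1 ≤ T := by exact_mod_cast k.isLt
    have hk0 : (0 : ℤ) ≤ (k : ℕ) := by positivity
    simp only [g, mem_Icc]
    push_cast
    constructor <;> nlinarith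
  · rw [card_image_of_injOn]
    · exact hcard
    · intro x hx y hy hxy
      simp only [coe_filter, mem_univ, true_and, Set.mem_ofPred_eq] at hx hy
      exact key x y (hx.trans hy.symm) 0 (by rw [hxy]; ring)
  · intro a ha b hb n hn
    obtain ⟨x, hx, rfl⟩ := mem_image.mp ha
    obtain ⟨y, hy, rfl⟩ := mem_image.mp hb
    have hxy := key x y ((mem_filter.mp hx).2.trans (mem_filter.mp hy).2.symm) n hn
    rw [hxy, sub_self] at hn
    exact pow_eq_zero_iff (by norm_num) |>.mp hn.symm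

def Fam (T0 M s c : ℕ) : Prop := ∀ L : ℕ, Good (M ^ L) (s ^ L) (c * T0 ^ L)

theorem fam_atom {T0 r s t : ℕ} (j : ℕ) (hr : r ≠ 0) (h : Good (r ^ 2) s t) (ht : t ^ j ≤ T0) :
    Fam T0 ((r ^ 2) ^ j) (s ^ j) 1 := by
  intro L
  have := h.pow hr (j * L)
  rw [pow_mul, pow_mul, pow_mul] at this
  exact this.mono (by rw [one_mul]; exact Nat.pow_le_pow_left ht L)

theorem Fam.crt {T0 M s c M' s' c' : ℕ} (h : Fam T0 M s c) (h' : Fam T0 M' s' c')
    (hc : Nat.Coprime M M') : Fam T0 (M * M') (s * s') (c + c') := by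
  intro L
  have := Good.crt (Nat.Coprime.pow L L hc) (h L) (h' L)
  rw [← mul_pow, ← mul_pow, ← add_mul] at this
  exact this

end Vale.Agent.P042
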