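import Mathlib
import Vale.Agent.P042.Chain

namespace Vale.Agent.P042

theorem atom2 : Good (4 ^ 2) 10 6 :=
  good_of_table 16 10 6 (by norm_num) ![0, 2, 3, 5, 6, 7, 8, 10, 13, 15]
    ![5, 0, 3, 0, 1, 4, 5, 2, 0, 2] (by decide +kernel) (by decide +kernel)

theorem atom3 : Good (3 ^ 2) (3 * 2) 2 :=
  good_of_chain 3 2 (by norm_num) ![0, 1] (by decide +kernel)

theorem atom7 : Good (7 ^ 2) (7 * 3) 3 :=
  good_of_chain 7 3 (by norm_num) ![0, 1, 2] (by decide +kernel)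

theorem atom11 : Good (11 ^ 2) (11 * 4) 4 :=
  good_of_chain 11 4 (by norm_num) ![0, 1, 4, 5] (by decide +kernel)

theorem atom19 : Good (19 ^ 2) (19 * 5) 5 :=
  good_of_chain 19 5 (by norm_num) ![0, 1, 6, 17, 7] (by decide +kernel)

theorem atom23 : Good (23 ^ 2) (23 * 5) 5 :=
  good_of_chain 23 5 (by norm_num) ![0, 1, 2, 3, 4] (by decide +kernel)

theorem atom31 : Good (31 ^ 2) (31 * 7) 7 :=
  good_of_chain 31 7 (by norm_num) ![0, 1, 8, 5, 2, 9, 10] (by decide +kernel)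

theorem atom43 : Good (43 ^ 2) (43 * 7) 7 :=
  good_of_chain 43 7 (by norm_num) ![0, 1, 10, 14, 11, 24, 25] (by decide +kernel)

theorem atom59 : Good (59 ^ 2) (59 * 9) 9 :=
  good_of_chain 59 9 (by norm_num) ![0, 1, 20, 29, 27, 21, 46, 49, 36] (by decide +kernel)

theorem atom71 : Good (71 ^ 2) (71 * 9) 9 :=
  good_of_chain 71 9 (by norm_num) ![0, 1, 37, 20, 6, 30, 9, 49, 38] (by decide +kernel)

theorem atom103 : Good (103 ^ 2) (103 * 11) 11 :=
  good_of_chain 103 11 (by norm_num) ![0, 1, 29, 92, 2, 61, 17, 30, 93, 18, 19] (by decide +kernel)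

def bigM : ℕ := (4 ^ 2) ^ 10 * (3 ^ 2) ^ 26 * (7 ^ 2) ^ 16 * (11 ^ 2) ^ 13 * (19 ^ 2) ^ 11 * (23 ^ 2) ^ 11 * (31 ^ 2) ^ 9 * (43 ^ 2) ^ 9 * (59 ^ 2) ^ 8 * (71 ^ 2) ^ 8 * (103 ^ 2) ^ 7

def bigS : ℕ := 10 ^ 10 * (3 * 2) ^ 26 * (7 * 3) ^ 16 * (11 * 4) ^ 13 * (19 * 5) ^ 11 * (23 * 5) ^ 11 * (31 * 7) ^ 9 * (43 * 7) ^ 9 * (59 * 9) ^ 8 * (71 * 9) ^ 8 * (103 * 11) ^ 7

theorem fam_all : Fam (2 ^ 26) bigM bigS 11 :=
  (((((((((((fam_atom 10 (by norm_num) atom2 (by norm_num)).crt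
    (fam_atom 26 (by norm_num) atom3 (by norm_num)) (by decide +kernel)).crt
    (fam_atom 16 (by norm_num) atom7 (by norm_num)) (by decide +kernel)).crt
    (fam_atom 13 (by norm_num) atom11 (by norm_num)) (by decide +kernel)).crt
    (fam_atom 11 (by norm_num) atom19 (by norm_num)) (by decide +kernel)).crt
    (fam_atom 11 (by norm_num) atom23 (by norm_num)) (by decide +kernel)).crt
    (fam_atom 9 (by norm_num) atom31 (by norm_num)) (by decide +kernel)).crt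
    (fam_atom 9 (by norm_num) atom43 (by norm_num)) (by decide +kernel)).crt
    (fam_atom 8 (by norm_num) atom59 (by norm_num)) (by decide +kernel)).crt
    (fam_atom 8 (by norm_num) atom71 (by norm_num)) (by decide +kernel)).crt
    (fam_atom 7 (by norm_num) atom103 (by norm_num)) (by decide +kernel))

theorem big_ineq : (bigM * 2 ^ 26) ^ 34 ≤ bigS ^ 45 := by decide +kernel

theorem bigM_pos : 0 < bigM := by decide +kernel

end Vale.Agent.P042
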